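import Vale.Agent.P235.K5.Cap

/-!
P235, line K5, CAP, row [LOW] (helper696).
-/

set_option autoImplicit false

namespace Vale.Agent.P235.K5.H696

open SimpleGraph Vale.Agent.P235 Vale.Agent.P235.H134 Vale.Agent.P235.H56
open Vale.Agent.P235.H341W (capG)
open Vale.Agent.P235.K5

variable {V : Type}

theorem fin3 (i : Fin 3) : i = 0 ∨ i = 1 ∨ i = 2 := by revert i; decide

theorem gp0 (d : V → V → ℝ) (R : Fin 3 → V) :
    gp d R 0 = (d (R 0) (R 1) + d (R 0) (R 2) - d (R 1) (R 2)) / 2 := rfl

theorem gp1 (d : V → V → ℝ) (R : Fin 3 → V) :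
    gp d R 1 = (d (R 1) (R 2) + d (R 1) (R 0) - d (R 2) (R 0)) / 2 := rfl

theorem gp2 (d : V → V → ℝ) (R : Fin 3 → V) :
    gp d R 2 = (d (R 2) (R 0) + d (R 2) (R 1) - d (R 0) (R 1)) / 2 := rfl

theorem gp_add {d : V → V → ℝ} (hd : IsMet d) (R : Fin 3 → V) {i j : Fin 3} (hij : i ≠ j) :
    gp d R i + gp d R j = d (R i) (R j) := by
  have h01 := hd.symm (R 0) (R 1)
  have h02 := hd.symm (R 0) (R 2)
  have h12 := hd.symm (R 1) (R 2)
  rcases fin3 i with rfl | rfl | rfl <;> rcases fin3 j with rfl | rfl | rfl <;>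
    first
      | exact absurd rfl hij
      | (simp only [gp0, gp1, gp2]; linarith)

theorem met_nonneg {d : V → V → ℝ} (hd : IsMet d) (x y : V) : 0 ≤ d x y := by
  have h1 := hd.tri x y x
  rw [hd.self, hd.symm y x] at h1
  linarith

theorem min_lip (a b A : ℝ) : |min a A - min b A| ≤ |a - b| := by
  have := abs_min_sub_min_le_max a A b A
  rwa [sub_self, abs_zero, max_eq_left (abs_nonneg _)] at this

theorem dist_lip {d : V → V → ℝ} (hd : IsMet d) (x u v : V) : |d x u - d x v| ≤ d u v := by
  have h1 := hd.tri x u v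
  have h2 := hd.tri x v u
  have h3 := hd.symm u v
  rw [abs_le]
  constructor <;> linarith

theorem dist_lip' {d : V → V → ℝ} (hd : IsMet d) (x u v : V) : |d u x - d v x| ≤ d u v := by
  rw [hd.symm u x, hd.symm v x]
  exact dist_lip hd x u v

theorem leg_nonneg (d : V → V → ℝ) (R : Fin 3 → V) (i : Fin 3) (u v : V) : 0 ≤ leg d R i u v :=
  abs_nonneg _

theorem leg_le {d : V → V → ℝ} (hd : IsMet d) (R : Fin 3 → V) (i : Fin 3) (u v : V) :
    leg d R i u v ≤ d u v :=
  (min_lip _ _ _).trans (dist_lip' hd (R i) u v)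

theorem le_ll (d : V → V → ℝ) (R : Fin 3 → V) (i : Fin 3) (u v : V) :
    (d u v - leg d R i u v) / 3 ≤ ll d R i u v := by
  have h0 := leg_nonneg d R 0 u v
  have h1 := leg_nonneg d R 1 u v
  have h2 := leg_nonneg d R 2 u v
  rcases fin3 i with rfl | rfl | rfl
  · show _ ≤ (d u v - (leg d R 0 u v + leg d R 1 u v + leg d R 2 u v)) / 3 +
      (leg d R 1 u v + leg d R 2 u v) / 2
    linarith
  · show _ ≤ (d u v - (leg d R 0 u v + leg d R 1 u v + leg d R 2 u v)) / 3 +
      (leg d R 2 u v + leg d R 0 u v) / 2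
    linarith
  · show _ ≤ (d u v - (leg d R 0 u v + leg d R 1 u v + leg d R 2 u v)) / 3 +
      (leg d R 0 u v + leg d R 1 u v) / 2
    linarith

/-- the height of `x` over the ball of `R i` -/
noncomputable def kap (d : V → V → ℝ) (R : Fin 3 → V) (i : Fin 3) (x : V) : ℝ :=
  max 0 (d x (R i) - gp d R i)

theorem inside {d : V → V → ℝ} (hd : IsMet d) (R : Fin 3 → V) (i : Fin 3) (x : V) {u : V}
    (hu : d u (R i) ≤ gp d R i) : min (d x u) (kap d R i x) = kap d R i x := by
  apply min_eq_right
  refine max_le (met_nonneg hd x u) ?_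
  have := hd.tri x u (R i)
  linarith

theorem mixed {d : V → V → ℝ} (hd : IsMet d) (R : Fin 3 → V) (i : Fin 3) (x : V) {u v : V}
    (hu : d u (R i) ≤ gp d R i) (hv : gp d R i ≤ d v (R i)) :
    |kap d R i x - min (d x v) (kap d R i x)| ≤ d u v - |d u (R i) - gp d R i| := by
  have e1 : |d u (R i) - gp d R i| = gp d R i - d u (R i) := by
    rw [abs_sub_comm, abs_of_nonneg (by linarith)]
  rw [e1, abs_of_nonneg (by linarith [min_le_right (d x v) (kap d R i x)])]
  have h1 := hd.tri v u (R i)
  have h2 := hd.symm u v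
  have h3 := hd.tri x v (R i)
  have h4 := met_nonneg hd x v
  rcases min_choice (d x v) (kap d R i x) with h | h
  · rw [h]
    have : kap d R i x ≤ d x v + (d u v - (gp d R i - d u (R i))) := by
      refine max_le ?_ ?_ <;> linarith
    linarith
  · rw [h]
    linarith

theorem core {d : V → V → ℝ} (hd : IsMet d) (R : Fin 3 → V) (i : Fin 3) (x u v : V) :
    |min (d x u) (kap d R i x) - min (d x v) (kap d R i x)| ≤ d u v - leg d R i u v := by
  rcases le_total (d u (R i)) (gp d R i) with hu | hu <;>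
    rcases le_total (d v (R i)) (gp d R i) with hv | hv
  · rw [inside hd R i x hu, inside hd R i x hv, sub_self, abs_zero]
    linarith [leg_le hd R i u v]
  · have := mixed hd R i x hu hv
    unfold leg
    rw [inside hd R i x hu, min_eq_left hu, min_eq_right hv]
    exact this
  · have := mixed hd R i x hv hu
    unfold leg
    rw [inside hd R i x hv, min_eq_right hu, min_eq_left hv, abs_sub_comm,
      abs_sub_comm (gp d R i), hd.symm u v]
    exact this
  · have h1 : leg d R i u v = 0 := by
      unfold leg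
      rw [min_eq_right hu, min_eq_right hv, sub_self, abs_zero]
    rw [h1, sub_zero]
    exact (min_lip _ _ _).trans (dist_lip hd x u v)

theorem lower {G : SimpleGraph V} {d D : V → V → ℝ} (hd : IsMet d) (R : Fin 3 → V) (i : Fin 3)
    (hD : SupPM G (ll d R i) D) (x y : V) : min (d x y) (kap d R i x) ≤ 3 * D x y := by
  have h := hD.2.2.2 (fun z => min (d x z) (kap d R i x) / 3) (fun u v _ => by
    have h1 := core hd R i x u v
    have h2 := le_ll d R i u v
    have e : min (d x u) (kap d R i x) / 3 - min (d x v) (kap d R i x) / 3 =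
        (min (d x u) (kap d R i x) - min (d x v) (kap d R i x)) / 3 := by ring
    show |min (d x u) (kap d R i x) / 3 - min (d x v) (kap d R i x) / 3| ≤ ll d R i u v
    rw [e, abs_div, abs_of_pos (by norm_num : (0 : ℝ) < 3)]
    linarith) x y
  have h0 : min (d x x) (kap d R i x) = 0 := by
    rw [hd.self]
    exact min_eq_left (le_max_left _ _)
  have h1 : |min (d x x) (kap d R i x) / 3 - min (d x y) (kap d R i x) / 3| ≤ D x y := h
  rw [h0, zero_div, zero_sub, abs_neg] at h1
  have h2 := (le_abs_self _).trans h1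
  linarith

/-- [LOW] -/
theorem low : LowStmt := by
  intro V _ G d hd hG R _ hno D hD x y
  by_contra hc
  push Not at hc
  have n0 := (hD 0).1.nonneg x y
  have n1 := (hD 1).1.nonneg x y
  have n2 := (hD 2).1.nonneg x y
  have hle : ∀ i, D i x y ≤ D 0 x y + D 1 x y + D 2 x y := by
    intro i
    rcases fin3 i with rfl | rfl | rfl <;> linarith
  have hx : ∀ i, d x (R i) ≤ gp d R i + 3 * (D 0 x y + D 1 x y + D 2 x y) := by
    intro i
    have h1 := lower hd R i (hD i) x y
    have h2 := hle i
    have h3 : d x (R i) - gp d R i ≤ kap d R i x := le_max_right _ _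
    rcases min_choice (d x y) (kap d R i x) with h | h
    · rw [h] at h1
      linarith
    · rw [h] at h1
      linarith
  have hy : ∀ i, d y (R i) ≤ gp d R i + 3 * (D 0 x y + D 1 x y + D 2 x y) := by
    intro i
    have h1 := lower hd R i (hD i) y x
    rw [(hD i).1.symm y x, hd.symm y x] at h1
    have h2 := hle i
    have h3 : d y (R i) - gp d R i ≤ kap d R i y := le_max_right _ _
    rcases min_choice (d x y) (kap d R i y) with h | h
    · rw [h] at h1
      linarith
    · rw [h] at h1
      linarith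
  have := H558.centre hd hG R hno (gp d R) (fun i j hij => (gp_add hd R hij).le) _ _ x y hx hy
  linarith

end Vale.Agent.P235.K5.H696
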